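import Crest.Agent.Lib.CookLevin.Frame
import Crest.Prelude.Def_Complexity

/-!
# Cook-Levin, part 2: a numeric description of the runs of a verifier
-/

namespace Crest.Agent.Lib.CookLevin

open Turing Turing.TM2

/-- A transition rule: state, window, new state, new tops of the stacks. -/
abbrev Rule := ℕ × List (List ℕ) × ℕ × List (List ℕ)

/-- Numeric data of a machine. -/
structure Mach where
  /-- number of stacks -/
  κ : ℕ
  /-- input stack -/
  k₀ : ℕ
  /-- output stack -/
  k₁ : ℕ
  /-- window size -/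
  d : ℕ
  /-- bound for the symbol codes -/
  g : ℕ
  /-- initial state -/
  s₀ : ℕ
  /-- codes of the input bits -/
  cL : Bool → ℕ
  /-- codes of the certificate bits -/
  cR : Bool → ℕ
  /-- code of the answer `false` -/
  cF : ℕ
  /-- rules -/
  R : List Rule

/-- The rule `r` applies at time `t`. -/
def Mach.Match (M : Mach) (st : ℕ → ℕ) (cell : ℕ → ℕ → ℕ → ℕ) (r : Rule) (t : ℕ) : Prop :=
  st t = r.1 ∧ ∀ k < M.κ, ∀ j < M.d, cell t k j = (r.2.1.getD k []).getD j 0

/-- `st, cell` describe the run on `(x, w)`, with answer `b` from time `T` on. -/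
structure Mach.Run (M : Mach) (x w : List Bool) (b : Bool) (T : ℕ) (st : ℕ → ℕ)
    (cell : ℕ → ℕ → ℕ → ℕ) : Prop where
  st0 : st 0 = M.s₀
  cell0 : ∀ k < M.κ, ∀ j, cell 0 k j =
    if k = M.k₀ then (x.map M.cL ++ w.map M.cR).getD j 0 else 0
  ex : ∀ t, ∃ r ∈ M.R, M.Match st cell r t
  step : ∀ t, ∀ r ∈ M.R, M.Match st cell r t → st (t + 1) = r.2.2.1 ∧ ∀ k < M.κ, ∀ j,
    cell (t + 1) k j = if j < (r.2.2.2.getD k []).length then (r.2.2.2.getD k []).getD j 0
      else cell t k (j - (r.2.2.2.getD k []).length + M.d)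
  lt : ∀ t k j, cell t k j < M.g
  fin : ∀ t, T ≤ t → (cell t M.k₁ 0 = M.cF ↔ b = false)

theorem list_eq_of_getD {d : ℕ} {l₁ l₂ : List ℕ} (h₁ : l₁.length ≤ d) (h₂ : l₂.length ≤ d)
    (p₁ : ∀ a ∈ l₁, a ≠ 0) (p₂ : ∀ a ∈ l₂, a ≠ 0)
    (h : ∀ j < d, l₁.getD j 0 = l₂.getD j 0) : l₁ = l₂ := by
  induction l₁ generalizing l₂ d with
  | nil =>
    cases l₂ with
    | nil => rfl
    | cons b l₂ =>
      have := h 0 (by simp at h₂; omega)
      simp at this
      exact absurd this.symm (p₂ b (by simp))
  | cons a l₁ ih =>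
    cases l₂ with
    | nil =>
      have := h 0 (by simp at h₁; omega)
      simp at this
      exact absurd this (p₁ a (by simp))
    | cons b l₂ =>
      simp only [List.length_cons] at h₁ h₂
      have h0 := h 0 (by omega)
      simp only [List.getD_cons_zero] at h0
      rw [h0, ih (d := d - 1) (l₂ := l₂) (by omega) (by omega) (fun c hc => p₁ c (by simp [hc]))
        (fun c hc => p₂ c (by simp [hc])) fun j hj => by simpa using h (j + 1) (by omega)]

theorem map_inj_of_injOn {α β : Type} {f : α → β} {s : Set α} (hf : Set.InjOn f s) :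
    ∀ {l₁ l₂ : List α}, (∀ a ∈ l₁, a ∈ s) → (∀ a ∈ l₂, a ∈ s) → l₁.map f = l₂.map f → l₁ = l₂
  | [], [], _, _, _ => rfl
  | [], _ :: _, _, _, h => by simp at h
  | _ :: _, [], _, _, h => by simp at h
  | a :: l₁, b :: l₂, h₁, h₂, h => by
    simp only [List.map_cons, List.cons.injEq] at h
    rw [hf (h₁ a (by simp)) (h₂ b (by simp)) h.1,
      map_inj_of_injOn hf (fun c hc => h₁ c (by simp [hc])) (fun c hc => h₂ c (by simp [hc])) h.2]

section codes

variable {K : Type} {Γ : K → Type} {Λ σ : Type}

open Classical in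
/-- Code of a symbol. -/
noncomputable def code (L : List (Σ k, Γ k)) (k : K) (a : Γ k) : ℕ := L.idxOf ⟨k, a⟩ + 1

theorem code_lt (L : List (Σ k, Γ k)) (k : K) (a : Γ k) : code L k a < L.length + 2 := by
  classical
  have := List.idxOf_le_length (l := L) (a := (⟨k, a⟩ : Σ k, Γ k))
  unfold code
  omega

theorem code_injOn (L : List (Σ k, Γ k)) (k : K) :
    Set.InjOn (code L k) {a | (⟨k, a⟩ : Σ k, Γ k) ∈ L} := by
  classical
  intro a ha b _ h
  simp only [code, Nat.add_right_cancel_iff] at h
  have := (List.idxOf_inj ha).1 (by convert h)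
  exact sigma_mk_injective this

variable [Fintype K] [Fintype Λ] [Fintype σ]

/-- The stacks as lists of numbers. -/
noncomputable def SL (L : List (Σ k, Γ k)) (c : Cfg Γ Λ σ) : List (List ℕ) :=
  List.ofFn fun i : Fin (Fintype.card K) =>
    (c.stk ((Fintype.equivFin K).symm i)).map (code L _)

/-- The control as a number. -/
noncomputable def sc (c : Cfg Γ Λ σ) : ℕ := (Fintype.equivFin (Option Λ × σ) (c.l, c.var)).val

omit [Fintype Λ] [Fintype σ] in
theorem SL_getD (L : List (Σ k, Γ k)) (c : Cfg Γ Λ σ) (k : K) :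
    (SL L c).getD (Fintype.equivFin K k).val [] = (c.stk k).map (code L k) := by
  rw [List.getD_eq_getElem _ _ (by simp [SL])]
  simp only [SL, List.getElem_ofFn, Fin.eta]
  have : ∀ k' (h : k' = k), (c.stk k').map (code L k') = (c.stk k).map (code L k) := by
    rintro _ rfl; rfl
  exact this _ (by simp)

omit [Fintype K] in
theorem sc_inj {c c' : Cfg Γ Λ σ} (h : sc c = sc c') : c.l = c'.l ∧ c.var = c'.var := by
  have := (Fintype.equivFin (Option Λ × σ)).injective (Fin.ext h)
  simpa using this

end codes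

theorem exists_equivFin {K : Type} [Fintype K] {i : ℕ} (hi : i < Fintype.card K) :
    ∃ k : K, (Fintype.equivFin K k).val = i :=
  ⟨(Fintype.equivFin K).symm ⟨i, hi⟩, by simp⟩

theorem getD_append_drop (F l : List ℕ) (d j : ℕ) :
    (F ++ l.drop d).getD j 0 = if j < F.length then F.getD j 0
      else l.getD (j - F.length + d) 0 := by
  split_ifs with h
  · rw [List.getD_append _ _ _ _ h]
  · rw [List.getD_append_right _ _ _ _ (by omega)]
    simp [List.getD_eq_getElem?_getD, Nat.add_comm]

/-- The numeric machine of a polynomial-time verifier. -/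
theorem exists_mach (V : List Bool × List Bool → Bool) (hV : Crest.Complexity.PolyTimePred₂ V) :
    ∃ (M : Mach) (T₀ : Polynomial ℕ), M.k₁ < M.κ ∧ ∀ x w : List Bool, ∃ st cell,
      M.Run x w (V (x, w)) (T₀.eval (x.length + w.length)) st cell := by
  classical
  obtain ⟨h⟩ := hV
  set tm := h.tm with htm
  let := tm.kFin
  let := tm.ΛFin
  let := tm.σFin
  let := tm.Γk₀Fin
  obtain ⟨d, hd⟩ : ∃ d, ∀ l, depth (tm.m l) ≤ d :=
    ⟨Finset.univ.sup fun l => depth (tm.m l), fun l =>
      Finset.le_sup (f := fun l => depth (tm.m l)) (Finset.mem_univ l)⟩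
  let G : Set (Σ k, tm.Γ k) := (⋃ l, pushed (tm.m l)) ∪
    ((Set.range fun a : tm.Γ tm.k₀ => (⟨tm.k₀, a⟩ : Σ k, tm.Γ k)) ∪
      Set.range fun b : Bool => (⟨tm.k₁, h.outputAlphabet.symm b⟩ : Σ k, tm.Γ k))
  have hG : G.Finite := (Set.finite_iUnion fun l => pushed_finite _).union
    ((Set.finite_range _).union (Set.finite_range _))
  have hGp : ∀ l, pushed (tm.m l) ⊆ G := fun l a ha => Or.inl (Set.mem_iUnion.2 ⟨l, ha⟩)
  let L := hG.toFinset.toList
  have hL : ∀ a, a ∈ L ↔ a ∈ G := fun a => by simp [L]
  have hW := finite_windows (Λ := tm.Λ) (σ := tm.σ) hG d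
  let rule : Cfg tm.Γ tm.Λ tm.σ → Rule := fun c =>
    (sc c, SL L c, sc (nxt tm.m c), SL L (nxt tm.m c))
  refine ⟨⟨Fintype.card tm.K, (Fintype.equivFin _ tm.k₀).val, (Fintype.equivFin _ tm.k₁).val,
    d, L.length + 2, sc (initList tm []), fun b => code L _ (h.inputAlphabet.symm (.inl b)),
    fun b => code L _ (h.inputAlphabet.symm (.inr b)), code L _ (h.outputAlphabet.symm false),
    hW.toFinset.toList.map rule⟩, h.time, Fin.is_lt _, fun x w => ?_⟩
  let c₀ : Cfg tm.Γ tm.Λ tm.σ :=
    initList tm ((Crest.Complexity.pairEnc (x, w)).map h.inputAlphabet.invFun)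
  let c : ℕ → Cfg tm.Γ tm.Λ tm.σ := fun t => (nxt tm.m)^[t] c₀
  have hc : ∀ t, c (t + 1) = nxt tm.m (c t) := fun t => Function.iterate_succ_apply' _ _ _
  have hgood : ∀ t, Good G (c t).stk := by
    intro t
    induction t with
    | zero =>
      intro k a ha
      by_cases hk : k = tm.k₀
      · subst hk; exact Or.inr (Or.inl ⟨a, rfl⟩)
      · simp [c, c₀, initList, hk] at ha
    | succ t ih => rw [hc]; exact nxt_good _ hGp _ ih
  have hwin : ∀ t, (∀ k, ((win d (c t)).stk k).length ≤ d) ∧ Good G (win d (c t)).stk :=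
    fun t => ⟨fun k => by simp [win], fun k a ha => hgood t k a (List.mem_of_mem_take ha)⟩
  refine ⟨fun t => sc (c t), fun t k j => ((SL L (c t)).getD k []).getD j 0, ?_, ?_, ?_, ?_, ?_, ?_⟩
  · rfl
  · intro i hi j
    obtain ⟨k, rfl⟩ := exists_equivFin hi
    simp only [SL_getD]
    by_cases hk : k = tm.k₀
    · subst hk
      simp [c, c₀, initList, Crest.Complexity.pairEnc, Computability.encodingProd,
        Computability.encodingList, Function.comp_def]
      rfl
    · have : (Fintype.equivFin tm.K k).val ≠ (Fintype.equivFin tm.K tm.k₀).val := fun e =>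
        hk ((Fintype.equivFin tm.K).injective (Fin.ext e))
      simp [c, c₀, initList, hk, this]
  · intro t
    refine ⟨rule (win d (c t)), List.mem_map_of_mem (by simpa using hwin t), rfl, ?_⟩
    intro i hi j hj
    obtain ⟨k, rfl⟩ := exists_equivFin hi
    simp only [rule, SL_getD, win, List.map_take]
    simp [List.getD_eq_getElem?_getD, hj]
  · intro t r hr hm
    obtain ⟨u, hu, rfl⟩ := List.mem_map.1 hr
    have hu' : (∀ k, (u.stk k).length ≤ d) ∧ Good G u.stk := by simpa using hu
    have e : u = win d (c t) := by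
      obtain ⟨h1, h2⟩ := sc_inj hm.1
      have h3 : ∀ k, u.stk k = (win d (c t)).stk k := fun k => by
        refine map_inj_of_injOn (code_injOn L k) (fun a ha => (hL _).2 (hu'.2 k a ha))
          (fun a ha => (hL _).2 ((hwin t).2 k a ha)) ?_
        refine list_eq_of_getD (d := d) (by simpa using hu'.1 k) (by simpa using (hwin t).1 k)
          (by simp [code]) (by simp [code]) fun j hj => ?_
        have := hm.2 _ (Fintype.equivFin tm.K k).is_lt j hj
        simp only [rule, SL_getD] at this
        rw [← this]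
        simp [win, List.getD_eq_getElem?_getD, hj]
      obtain ⟨l, v, S⟩ := u
      simp only at h1 h2 h3
      simp only [win, h1, h2]
      congr 1
      funext k
      exact h3 k
    subst e
    have hf := nxt_frame tm.m hd (c t)
    refine ⟨?_, fun i hi j => ?_⟩
    · simp only [rule, hc]
      rw [hf]; rfl
    · obtain ⟨k, rfl⟩ := exists_equivFin hi
      simp only [rule, SL_getD, hc]
      rw [← getD_append_drop, ← List.map_drop, ← List.map_append]
      conv_lhs => rw [hf]
      rfl
  · intro t i j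
    by_cases hi : i < Fintype.card tm.K
    · obtain ⟨k, rfl⟩ := exists_equivFin hi
      simp only [SL_getD]
      rw [List.getD_eq_getElem?_getD, List.getElem?_map]
      cases ((c t).stk k)[j]? with
      | none => simp
      | some a => simpa using code_lt L k a
    · have e : (SL L (c t)).getD i [] = [] :=
        List.getD_eq_default _ _ (by simp [SL]; omega)
      simp only [e]
      simp
  · intro t ht
    obtain ⟨⟨n, hn⟩, hle⟩ := h.outputsFun (x, w)
    have hlen : (Crest.Complexity.pairEnc (x, w)).length = x.length + w.length := by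
      simp [Crest.Complexity.pairEnc, Computability.encodingProd, Computability.encodingList]
    simp only [hlen] at hle
    have h1 : c n = haltList tm [h.outputAlphabet.symm (V (x, w))] :=
      iterate_getD tm.step n _ _ hn
    have h2 : ∀ m, c (n + m) = haltList tm [h.outputAlphabet.symm (V (x, w))] := by
      intro m
      induction m with
      | zero => exact h1
      | succ m ih => rw [← Nat.add_assoc, hc, ih]; rfl
    obtain ⟨m, rfl⟩ := Nat.exists_eq_add_of_le (hle.trans ht)
    simp only [SL_getD]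
    have h3 : (c (n + m)).stk tm.k₁ = [h.outputAlphabet.symm (V (x, w))] := by
      rw [h2]; simp [haltList]
    rw [h3]
    simp only [List.map_cons, List.getD_cons_zero]
    constructor
    · intro e
      have := code_injOn L tm.k₁ ((hL _).2 (Or.inr (Or.inr ⟨_, rfl⟩)))
        ((hL _).2 (Or.inr (Or.inr ⟨_, rfl⟩))) e
      exact h.outputAlphabet.symm.injective this
    · intro e; rw [e]

end Crest.Agent.Lib.CookLevin
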