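import Crest.Agent.Lib.CookLevin.Abs

/-!
# Cook-Levin, part 3: the formula describing an accepting run
-/

namespace Crest.Agent.Lib.CookLevin

/-- Variables. -/
abbrev Var := ℕ × ℕ × ℕ × ℕ × ℕ

/-- Clauses. -/
abbrev Clause := List (Var × Bool)

/-- "cell `j` of stack `k` holds `γ` at time `t`" -/
def vc (t k j γ : ℕ) : Var := (0, t, k, j, γ)
/-- "the state at time `t` is `s`" -/
def vs (t s : ℕ) : Var := (1, t, 0, 0, s)
/-- bit `i` of the certificate -/
def vb (i : ℕ) : Var := (2, 0, 0, i, 0)
/-- "the certificate has at most `i` bits" -/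
def ve (i : ℕ) : Var := (3, 0, 0, i, 0)

/-- The clause `B → h`. -/
def imp (B : List Var) (h : Var) : Clause := (h, true) :: B.map fun v => (v, false)

/-- Satisfaction of a clause. -/
def Sat (σ : Var → Bool) (C : Clause) : Prop := ∃ l ∈ C, σ l.1 = l.2

theorem sat_nil {σ : Var → Bool} : Sat σ [] ↔ False := by simp [Sat]

theorem sat_cons {σ : Var → Bool} {v : Var} {b : Bool} {C : Clause} :
    Sat σ ((v, b) :: C) ↔ σ v = b ∨ Sat σ C := by
  simp only [Sat, List.mem_cons, exists_eq_or_imp]

theorem sat_imp {σ : Var → Bool} {B : List Var} {h : Var} :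
    Sat σ (imp B h) ↔ ((∀ v ∈ B, σ v = true) → σ h = true) := by
  simp only [Sat, imp, List.mem_cons, exists_eq_or_imp, List.mem_map]
  constructor
  · rintro (h | ⟨_, ⟨v, hv, rfl⟩, h⟩) hB
    · exact h
    · rw [hB v hv] at h; cases h
  · intro H
    by_cases hB : ∀ v ∈ B, σ v = true
    · exact Or.inl (H hB)
    · push Not at hB
      obtain ⟨v, hv, h⟩ := hB
      exact Or.inr ⟨_, ⟨v, hv, rfl⟩, by simpa using h⟩

namespace Mach

variable (M : Mach)

/-- Number of cells per stack that matter at time `t`. -/
def ht (T t : ℕ) : ℕ := (T - t) * M.d + 1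

/-- The variables saying that rule `r` applies at time `t`. -/
def body (r : Rule) (t : ℕ) : List Var :=
  vs t r.1 :: (List.range M.κ).flatMap fun k =>
    (List.range M.d).map fun j => vc t k j ((r.2.1.getD k []).getD j 0)

/-- Clauses for one cell at time `0`. -/
def initC (x : List Bool) (k j : ℕ) : List Clause :=
  if k = M.k₀ then
    if j < x.length then [[(vc 0 k j (cond (x.getD j false) (M.cL true) (M.cL false)), true)]]
    else [[(ve (j - x.length), false), (vc 0 k j 0, true)],
      [(ve (j - x.length), true), (vb (j - x.length), false), (vc 0 k j (M.cR true), true)],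
      [(ve (j - x.length), true), (vb (j - x.length), true), (vc 0 k j (M.cR false), true)]]
  else [[(vc 0 k j 0, true)]]

/-- Clauses for one cell at time `t + 1`. -/
def stepC (r : Rule) (t k j : ℕ) : List Clause :=
  if j < (r.2.2.2.getD k []).length then
    [imp (M.body r t) (vc (t + 1) k j ((r.2.2.2.getD k []).getD j 0))]
  else (List.range M.g).map fun γ =>
    imp (vc t k (j - (r.2.2.2.getD k []).length + M.d) γ :: M.body r t) (vc (t + 1) k j γ)

/-- The formula. -/
def cnf (x : List Bool) (P T : ℕ) : List Clause :=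
  [[(vs 0 M.s₀, true)], [(ve P, true)], [(vc T M.k₁ 0 M.cF, false)]] ++
  ((List.range (M.ht T 0)).map fun i => imp [ve i] (ve (i + 1))) ++
  ((List.range M.κ).flatMap fun k => (List.range (M.ht T 0)).flatMap fun j => M.initC x k j) ++
  ((List.range T).flatMap fun t => M.R.flatMap fun r =>
    imp (M.body r t) (vs (t + 1) r.2.2.1) :: (List.range M.κ).flatMap fun k =>
      (List.range (M.ht T (t + 1))).flatMap fun j => M.stepC r t k j)

theorem body_iff (σ : Var → Bool) (r : Rule) (t : ℕ) :
    (∀ v ∈ M.body r t, σ v = true) ↔ σ (vs t r.1) = true ∧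
      ∀ k < M.κ, ∀ j < M.d, σ (vc t k j ((r.2.1.getD k []).getD j 0)) = true := by
  simp only [body, List.forall_mem_cons, List.forall_mem_flatMap, List.forall_mem_map,
    List.mem_range]

theorem cnf_iff (σ : Var → Bool) (x : List Bool) (P T : ℕ) :
    (∀ C ∈ M.cnf x P T, Sat σ C) ↔
      ((σ (vs 0 M.s₀) = true ∧ σ (ve P) = true ∧ σ (vc T M.k₁ 0 M.cF) = false) ∧
      (∀ i < M.ht T 0, σ (ve i) = true → σ (ve (i + 1)) = true)) ∧
      (∀ k < M.κ, ∀ j < M.ht T 0, ∀ C ∈ M.initC x k j, Sat σ C) ∧
      ∀ t < T, ∀ r ∈ M.R, ((∀ v ∈ M.body r t, σ v = true) → σ (vs (t + 1) r.2.2.1) = true) ∧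
        ∀ k < M.κ, ∀ j < M.ht T (t + 1), ∀ C ∈ M.stepC r t k j, Sat σ C := by
  simp only [cnf, List.forall_mem_append, List.forall_mem_cons, List.forall_mem_flatMap,
    List.forall_mem_map, List.mem_range, sat_imp, and_assoc]
  simp [sat_cons, sat_nil]

theorem sound (hk : M.k₁ < M.κ) (x : List Bool) (P T : ℕ) (σ : Var → Bool)
    (hσ : ∀ C ∈ M.cnf x P T, Sat σ C) : ∃ w : List Bool, w.length ≤ P ∧
      ∀ b T' st cell, T' ≤ T → M.Run x w b T' st cell → b = true := by
  classical
  obtain ⟨⟨⟨h0, hP, hF⟩, hmono⟩, hinit, hstep⟩ := (M.cnf_iff σ x P T).1 hσ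
  have hex : ∃ i, σ (ve i) = true := ⟨P, hP⟩
  set m := Nat.find hex with hm
  have he : ∀ i, m ≤ i → i ≤ M.ht T 0 → σ (ve i) = true := by
    intro i hi
    induction i, hi using Nat.le_induction with
    | base => exact fun _ => Nat.find_spec hex
    | succ i _ ih => exact fun h => hmono i (by omega) (ih (by omega))
  have he' : ∀ i < m, σ (ve i) = false := fun i hi => by simpa using Nat.find_min hex hi
  refine ⟨(List.range m).map fun i => σ (vb i), by
    rw [List.length_map, List.length_range]; exact Nat.find_min' hex hP, ?_⟩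
  intro b T' st cell hT R
  have key : ∀ t ≤ T, σ (vs t (st t)) = true ∧
      ∀ k < M.κ, ∀ j < M.ht T t, σ (vc t k j (cell t k j)) = true := by
    intro t
    induction t with
    | zero =>
      refine fun _ => ⟨R.st0 ▸ h0, fun k hk j hj => ?_⟩
      have h := hinit k hk j hj
      rw [R.cell0 k hk j]
      unfold initC at h
      split_ifs at h ⊢ with h1 h2
      · rw [List.getD_append _ _ _ _ (by simpa using h2)]
        have e : (x.map M.cL).getD j 0 = cond (x.getD j false) (M.cL true) (M.cL false) := by
          rw [List.getD_eq_getElem _ _ (by simpa using h2), List.getD_eq_getElem _ _ h2,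
            List.getElem_map]
          cases x[j] <;> rfl
        rw [e]
        simpa [sat_cons, sat_nil] using h
      · rw [List.getD_append_right _ _ _ _ (by simpa using h2), List.length_map]
        simp only [List.forall_mem_cons, sat_cons, sat_nil] at h
        by_cases hi : j - x.length < m
        · rw [List.getD_eq_getElem _ _ (by simpa using hi)]
          have h3 := he' _ hi
          simp only [List.getElem_map, List.getElem_range]
          cases hb : σ (vb (j - x.length))
          · simpa [h3, hb] using h.2.2.1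
          · simpa [h3, hb] using h.2.1
        · rw [List.getD_eq_default _ _ (by simpa using hi)]
          have h3 := he (j - x.length) (by omega) (by omega)
          simpa [h3] using h.1
      · simpa [sat_cons, sat_nil] using h
    | succ t ih =>
      intro ht
      obtain ⟨ih1, ih2⟩ := ih (by omega)
      obtain ⟨r, hr, hM⟩ := R.ex t
      obtain ⟨hs1, hs2⟩ := R.step t r hr hM
      obtain ⟨hc1, hc2⟩ := hstep t (by omega) r hr
      have hh : M.ht T t = M.ht T (t + 1) + M.d := by
        unfold Mach.ht
        rw [show T - t = T - (t + 1) + 1 by omega]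
        ring
      have hb : ∀ v ∈ M.body r t, σ v = true := by
        rw [body_iff]
        refine ⟨hM.1 ▸ ih1, fun k hk j hj => ?_⟩
        rw [← hM.2 k hk j hj]
        exact ih2 k hk j (by omega)
      refine ⟨hs1 ▸ hc1 hb, fun k hk j hj => ?_⟩
      have h := hc2 k hk j hj
      rw [hs2 k hk j]
      unfold stepC at h
      split_ifs at h ⊢ with h1
      · exact sat_imp.1 (h _ (List.mem_singleton_self _)) hb
      · rw [List.forall_mem_map] at h
        refine sat_imp.1 (h _ (List.mem_range.2 (R.lt _ _ _))) ?_
        rw [List.forall_mem_cons]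
        exact ⟨ih2 k hk _ (by omega), hb⟩
  have h1 := (key T le_rfl).2 _ hk 0 (by simp [Mach.ht])
  have h2 := R.fin T hT
  cases b
  · rw [h2.2 rfl, hF] at h1; cases h1
  · rfl

theorem complete (x w : List Bool) (P T T' : ℕ) (hw : w.length ≤ P) (hT : T' ≤ T)
    {st : ℕ → ℕ} {cell : ℕ → ℕ → ℕ → ℕ} (R : M.Run x w true T' st cell) :
    ∃ σ : Var → Bool, ∀ C ∈ M.cnf x P T, Sat σ C := by
  let σ : Var → Bool := fun v =>
    if v.1 = 0 then decide (cell v.2.1 v.2.2.1 v.2.2.2.1 = v.2.2.2.2)
    else if v.1 = 1 then decide (st v.2.1 = v.2.2.2.2)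
    else if v.1 = 2 then w.getD v.2.2.2.1 false
    else decide (w.length ≤ v.2.2.2.1)
  have hc : ∀ t k j γ, σ (vc t k j γ) = decide (cell t k j = γ) := fun _ _ _ _ => rfl
  have hs : ∀ t s, σ (vs t s) = decide (st t = s) := fun _ _ => rfl
  have hb : ∀ i, σ (vb i) = w.getD i false := fun _ => rfl
  have he : ∀ i, σ (ve i) = decide (w.length ≤ i) := fun _ => rfl
  have hbody : ∀ r t, (∀ v ∈ M.body r t, σ v = true) → M.Match st cell r t := by
    intro r t h
    rw [body_iff] at h
    simpa only [hc, hs, decide_eq_true_eq, Mach.Match] using h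
  clear_value σ
  refine ⟨σ, (M.cnf_iff σ x P T).2 ⟨⟨⟨?_, ?_, ?_⟩, ?_⟩, ?_, ?_⟩⟩
  · simp [hs, R.st0]
  · simp [he, hw]
  · simpa [hc] using fun e => by simpa using (R.fin T hT).1 e
  · intro i _
    simp only [he, decide_eq_true_eq]
    omega
  · intro k hk j _
    have h := R.cell0 k hk j
    unfold initC
    split_ifs at h ⊢ with h1 h2
    · rw [List.getD_append _ _ _ _ (by simpa using h2)] at h
      have e : (x.map M.cL).getD j 0 = cond (x.getD j false) (M.cL true) (M.cL false) := by
        rw [List.getD_eq_getElem _ _ (by simpa using h2), List.getD_eq_getElem _ _ h2,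
          List.getElem_map]
        cases x[j] <;> rfl
      rw [e] at h
      simp only [List.forall_mem_singleton, sat_cons, hc, h, decide_true, true_or]
    · rw [List.getD_append_right _ _ _ _ (by simpa using h2), List.length_map] at h
      simp only [List.forall_mem_cons, sat_cons, sat_nil, hc, he, hb, h]
      by_cases hi : j - x.length < w.length
      · rw [List.getD_eq_getElem _ _ (by simpa using hi), List.getD_eq_getElem _ _ hi,
          List.getElem_map]
        have : ¬ w.length ≤ j - x.length := by omega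
        cases w[j - x.length] <;> simp [this]
      · rw [List.getD_eq_default _ _ (by simpa using hi)]
        have : w.length ≤ j - x.length := by omega
        simp [this]
    · simp [sat_cons, hc, h]
  · intro t _ r hr
    refine ⟨fun h => ?_, fun k hk j _ => ?_⟩
    · simp [hs, (R.step t r hr (hbody r t h)).1]
    · unfold stepC
      split_ifs with h1
      · rw [List.forall_mem_singleton, sat_imp]
        intro h
        rw [hc, (R.step t r hr (hbody r t h)).2 k hk j, if_pos h1]
        simp
      · rw [List.forall_mem_map]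
        intro γ _
        rw [sat_imp, List.forall_mem_cons]
        rintro ⟨h2, h⟩
        rw [hc, (R.step t r hr (hbody r t h)).2 k hk j, if_neg h1]
        rwa [hc] at h2

end Mach

end Crest.Agent.Lib.CookLevin
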