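import Mathlib

/-!
# Cook-Levin, part 1: one step of a stack machine only looks at a bounded window
-/

namespace Crest.Agent.Lib.CookLevin

open Turing Turing.TM2

variable {K : Type} {Γ : K → Type} {Λ σ : Type}

/-- Number of stack operations along the longest branch of a statement. -/
def depth : Stmt Γ Λ σ → ℕ
  | .push _ _ q => depth q + 1
  | .peek _ _ q => depth q + 1
  | .pop _ _ q => depth q + 1
  | .load _ q => depth q
  | .branch _ q₁ q₂ => max (depth q₁) (depth q₂)
  | .goto _ => 0
  | .halt => 0

/-- Symbols a statement can push. -/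
def pushed : Stmt Γ Λ σ → Set (Σ k, Γ k)
  | .push k f q => (Set.range fun v => (⟨k, f v⟩ : Σ k, Γ k)) ∪ pushed q
  | .peek _ _ q => pushed q
  | .pop _ _ q => pushed q
  | .load _ q => pushed q
  | .branch _ q₁ q₂ => pushed q₁ ∪ pushed q₂
  | .goto _ => ∅
  | .halt => ∅

theorem pushed_finite [Finite σ] (q : Stmt Γ Λ σ) : (pushed q).Finite := by
  induction q with
  | push k f q ih => exact (Set.finite_range _).union ih
  | peek k f q ih => exact ih
  | pop k f q ih => exact ih
  | load f q ih => exact ih
  | branch f q₁ q₂ ih₁ ih₂ => exact ih₁.union ih₂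
  | goto f => exact Set.finite_empty
  | halt => exact Set.finite_empty

/-- Append fixed lists below the stacks. -/
def below (c : Cfg Γ Λ σ) (r : ∀ k, List (Γ k)) : Cfg Γ Λ σ :=
  ⟨c.l, c.var, fun k => c.stk k ++ r k⟩

/-- All symbols on the stacks lie in `G`. -/
def Good (G : Set (Σ k, Γ k)) (S : ∀ k, List (Γ k)) : Prop :=
  ∀ k, ∀ a ∈ S k, (⟨k, a⟩ : Σ k, Γ k) ∈ G

variable [DecidableEq K]

theorem stepAux_frame (q : Stmt Γ Λ σ) : ∀ (v : σ) (a r : ∀ k, List (Γ k)),
    (∀ k, depth q ≤ (a k).length ∨ r k = []) →
    stepAux q v (fun k => a k ++ r k) = below (stepAux q v a) r := by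
  induction q with
  | push k f q ih =>
    intro v a r h
    have e : Function.update (fun k => a k ++ r k) k (f v :: (a k ++ r k)) =
        fun k' => Function.update a k (f v :: a k) k' ++ r k' := by
      funext k'
      by_cases hk : k' = k
      · subst hk; simp
      · simp [Function.update_of_ne hk]
    simp only [stepAux.eq_1]
    rw [e, ih]
    intro k'
    rcases h k' with h | h
    · left
      simp only [depth] at h
      by_cases hk : k' = k
      · subst hk; simp; omega
      · simp [Function.update_of_ne hk]; omega
    · exact Or.inr h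
  | peek k f q ih =>
    intro v a r h
    have e : (a k ++ r k).head? = (a k).head? := by
      rcases h k with h | h
      · simp only [depth] at h
        cases hak : a k with
        | nil => simp [hak] at h
        | cons b l => simp
      · simp [h]
    simp only [stepAux.eq_2]
    rw [e, ih]
    intro k'
    rcases h k' with h | h
    · left; simp only [depth] at h; omega
    · exact Or.inr h
  | pop k f q ih =>
    intro v a r h
    have e : (a k ++ r k).head? = (a k).head? ∧ (a k ++ r k).tail = (a k).tail ++ r k := by
      rcases h k with h | h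
      · simp only [depth] at h
        cases hak : a k with
        | nil => simp [hak] at h
        | cons b l => simp
      · simp [h]
    have e2 : Function.update (fun k => a k ++ r k) k (a k ++ r k).tail =
        fun k' => Function.update a k (a k).tail k' ++ r k' := by
      funext k'
      by_cases hk : k' = k
      · subst hk; simp [e.2]
      · simp [Function.update_of_ne hk]
    simp only [stepAux.eq_3]
    rw [e.1, e2, ih]
    intro k'
    rcases h k' with h | h
    · left
      simp only [depth] at h
      by_cases hk : k' = k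
      · subst hk; simp; omega
      · simp [Function.update_of_ne hk]; omega
    · exact Or.inr h
  | load f q ih =>
    intro v a r h
    simp only [stepAux.eq_4]
    exact ih _ _ _ h
  | branch f q₁ q₂ ih₁ ih₂ =>
    intro v a r h
    simp only [stepAux.eq_5]
    cases f v
    · simp only [cond_false]
      refine ih₂ _ _ _ fun k => (h k).imp_left fun h => ?_
      simp only [depth] at h; omega
    · simp only [cond_true]
      refine ih₁ _ _ _ fun k => (h k).imp_left fun h => ?_
      simp only [depth] at h; omega
  | goto f => intro v a r _; rfl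
  | halt => intro v a r _; rfl

theorem stepAux_good {G : Set (Σ k, Γ k)} (q : Stmt Γ Λ σ) : ∀ (v : σ) (S : ∀ k, List (Γ k)),
    pushed q ⊆ G → Good G S → Good G (stepAux q v S).stk := by
  induction q with
  | push k f q ih =>
    intro v S hq hS
    simp only [stepAux.eq_1]
    refine ih _ _ (fun x hx => hq (Or.inr hx)) fun k' a ha => ?_
    by_cases hk : k' = k
    · subst hk
      simp only [Function.update_self, List.mem_cons] at ha
      rcases ha with rfl | ha
      · exact hq (Or.inl ⟨v, rfl⟩)
      · exact hS _ _ ha
    · rw [Function.update_of_ne hk] at ha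
      exact hS _ _ ha
  | peek k f q ih => intro v S hq hS; exact ih _ _ hq hS
  | pop k f q ih =>
    intro v S hq hS
    simp only [stepAux.eq_3]
    refine ih _ _ hq fun k' a ha => ?_
    by_cases hk : k' = k
    · subst hk
      simp only [Function.update_self] at ha
      exact hS _ _ (List.mem_of_mem_tail ha)
    · rw [Function.update_of_ne hk] at ha
      exact hS _ _ ha
  | load f q ih => intro v S hq hS; exact ih _ _ hq hS
  | branch f q₁ q₂ ih₁ ih₂ =>
    intro v S hq hS
    simp only [stepAux.eq_5]
    cases f v
    · exact ih₂ _ _ (fun x hx => hq (Or.inr hx)) hS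
    · exact ih₁ _ _ (fun x hx => hq (Or.inl hx)) hS
  | goto f => intro v S _ hS; exact hS
  | halt => intro v S _ hS; exact hS

/-- The step function, extended by the identity on halted configurations. -/
def nxt (M : Λ → Stmt Γ Λ σ) (c : Cfg Γ Λ σ) : Cfg Γ Λ σ := (step M c).getD c

omit [DecidableEq K] in
/-- The control and the top `d` symbols of every stack. -/
def win (d : ℕ) (c : Cfg Γ Λ σ) : Cfg Γ Λ σ := ⟨c.l, c.var, fun k => (c.stk k).take d⟩

theorem nxt_frame (M : Λ → Stmt Γ Λ σ) {d : ℕ} (hd : ∀ l, depth (M l) ≤ d) (c : Cfg Γ Λ σ) :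
    nxt M c = below (nxt M (win d c)) fun k => (c.stk k).drop d := by
  obtain ⟨l, v, S⟩ := c
  cases l with
  | none => simp [nxt, win, below]
  | some l =>
    have := stepAux_frame (M l) v (fun k => (S k).take d) (fun k => (S k).drop d) fun k => by
      by_cases h : d ≤ (S k).length
      · left; simp [h, hd l]
      · right; exact List.drop_eq_nil_of_le (by omega)
    simp only [List.take_append_drop] at this
    simpa [nxt, win] using this

theorem nxt_good (M : Λ → Stmt Γ Λ σ) {G : Set (Σ k, Γ k)} (hG : ∀ l, pushed (M l) ⊆ G)
    (c : Cfg Γ Λ σ) (hc : Good G c.stk) : Good G (nxt M c).stk := by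
  obtain ⟨l, v, S⟩ := c
  cases l with
  | none => simpa [nxt] using hc
  | some l => simpa [nxt] using stepAux_good (M l) v S (hG l) hc

theorem iterate_bind_none {α : Type} (f : α → Option α) (n : ℕ) :
    (flip bind f)^[n] none = none := by
  induction n with
  | zero => rfl
  | succ n ih => rw [Function.iterate_succ_apply]; exact ih

theorem iterate_getD {α : Type} (f : α → Option α) (n : ℕ) : ∀ a b : α,
    (flip bind f)^[n] (some a) = some b → (fun c => (f c).getD c)^[n] a = b := by
  induction n with
  | zero => intro a b h; simpa using h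
  | succ n ih =>
    intro a b h
    rw [Function.iterate_succ_apply] at h ⊢
    have e : flip bind f (some a) = f a := rfl
    rw [e] at h
    cases hf : f a with
    | none => rw [hf, iterate_bind_none] at h; cases h
    | some a' => rw [hf] at h; simpa using ih a' b h

omit [DecidableEq K] in
theorem finite_lists {α : Type} {s : Set α} (hs : s.Finite) (d : ℕ) :
    {l : List α | l.length ≤ d ∧ ∀ a ∈ l, a ∈ s}.Finite := by
  induction d with
  | zero => exact (Set.finite_singleton []).subset fun l hl => by simpa using hl.1
  | succ d ih =>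
    refine ((Set.finite_singleton []).union (hs.image2 List.cons ih)).subset fun l hl => ?_
    cases l with
    | nil => exact Or.inl rfl
    | cons a l =>
      right
      refine ⟨a, hl.2 a (by simp), l, ⟨?_, fun b hb => hl.2 b (by simp [hb])⟩, rfl⟩
      have := hl.1
      simp at this; omega

omit [DecidableEq K] in
theorem finite_windows [Finite K] [Finite Λ] [Finite σ] {G : Set (Σ k, Γ k)} (hG : G.Finite)
    (d : ℕ) : {c : Cfg Γ Λ σ | (∀ k, (c.stk k).length ≤ d) ∧ Good G c.stk}.Finite := by
  have h1 : ∀ k, {l : List (Γ k) | l.length ≤ d ∧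
      ∀ a ∈ l, a ∈ {a : Γ k | (⟨k, a⟩ : Σ k, Γ k) ∈ G}}.Finite := fun k =>
    finite_lists (hG.preimage (f := fun a : Γ k => (⟨k, a⟩ : Σ k, Γ k))
      (sigma_mk_injective.injOn)) d
  have h2 := (Set.finite_univ (α := Option Λ × σ)).prod (Set.Finite.pi' h1)
  refine (h2.image fun p => (⟨p.1.1, p.1.2, p.2⟩ : Cfg Γ Λ σ)).subset fun c hc => ?_
  exact ⟨((c.l, c.var), c.stk), ⟨trivial, fun k => ⟨hc.1 k, hc.2 k⟩⟩, rfl⟩

end Crest.Agent.Lib.CookLevin
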