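import Crest.Agent.Lib.PT.All
import Crest.Prelude.Def_Complexity
import Crest.Agent.Lib.CookLevin.Cnf

/-!
# The Cook-Levin theorem for the machines of the prelude
-/

namespace Crest.Agent.Lib.CookLevin

open Crest.Agent.Lib.PT

section pt

variable {α : Type} [Enc α]

@[fun_prop] theorem vc_pt {t k j γ : α → ℕ} (ht : PT t) (hk : PT k) (hj : PT j) (hγ : PT γ) :
    PT fun a => vc (t a) (k a) (j a) (γ a) := by unfold vc; fun_prop

@[fun_prop] theorem vs_pt {t s : α → ℕ} (ht : PT t) (hs : PT s) :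
    PT fun a => vs (t a) (s a) := by unfold vs; fun_prop

@[fun_prop] theorem vb_pt {i : α → ℕ} (hi : PT i) : PT fun a => vb (i a) := by
  unfold vb; fun_prop

@[fun_prop] theorem ve_pt {i : α → ℕ} (hi : PT i) : PT fun a => ve (i a) := by
  unfold ve; fun_prop

attribute [local irreducible] vc vs vb ve

@[fun_prop] theorem imp_pt {B : α → List Var} {h : α → Var} (hB : PT B) (hh : PT h) :
    PT fun a => imp (B a) (h a) := by unfold imp; fun_prop

@[fun_prop] theorem body_pt (M : Mach) {r : α → Rule} {t : α → ℕ} (hr : PT r) (ht : PT t) :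
    PT fun a => M.body (r a) (t a) := by unfold Mach.body; fun_prop

@[fun_prop] theorem initC_pt (M : Mach) {x : α → List Bool} {k j : α → ℕ} (hx : PT x) (hk : PT k)
    (hj : PT j) : PT fun a => M.initC (x a) (k a) (j a) := by unfold Mach.initC; fun_prop

@[fun_prop] theorem stepC_pt (M : Mach) {r : α → Rule} {t k j : α → ℕ} (hr : PT r) (ht : PT t)
    (hk : PT k) (hj : PT j) : PT fun a => M.stepC (r a) (t a) (k a) (j a) := by
  unfold Mach.stepC; fun_prop

theorem cnf_pt_un (M : Mach) :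
    PT fun q : List Bool × ℕ × Un => M.cnf q.1 q.2.1 q.2.2.n := by
  unfold Mach.cnf Mach.ht; fun_prop

theorem cnf_pt (M : Mach) {x : α → List Bool} {P T : α → ℕ} (hx : PT x) (hP : PT P) (hT : PT T)
    (hb : PB T) : PT fun a => M.cnf (x a) (P a) (T a) :=
  (cnf_pt_un M).comp (f := fun a => (x a, P a, Un.mk (T a))) (by fun_prop)

end pt

theorem eval_mono (p : Polynomial ℕ) {a b : ℕ} (h : a ≤ b) : p.eval a ≤ p.eval b := by
  rw [Polynomial.eval_eq_sum_range, Polynomial.eval_eq_sum_range]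
  exact Finset.sum_le_sum fun i _ => Nat.mul_le_mul_left _ (Nat.pow_le_pow_left h i)

/-- The variables of a formula. -/
def vars (ψ : List Clause) : List Var := ψ.flatten.map (·.1)

/-- The formula with its variables numbered. -/
def number (ψ : List Clause) : List (List (ℕ × Bool)) :=
  ψ.map fun C => C.map fun l => ((vars ψ).idxOf l.1, l.2)

theorem mem_vars {ψ : List Clause} {C : Clause} (hC : C ∈ ψ) {l : Var × Bool} (hl : l ∈ C) :
    l.1 ∈ vars ψ := List.mem_map_of_mem (List.mem_flatten.2 ⟨C, hC, hl⟩)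

theorem number_lt (ψ : List Clause) : ∀ C ∈ number ψ, ∀ l ∈ C, l.1 < (vars ψ).length := by
  simp only [number, List.forall_mem_map]
  exact fun C hC l hl => List.idxOf_lt_length_of_mem (mem_vars hC hl)

theorem number_sat (ψ : List Clause) :
    (∃ σ : ℕ → Bool, ∀ C ∈ number ψ, ∃ l ∈ C, σ l.1 = l.2) ↔ ∃ σ, ∀ C ∈ ψ, Sat σ C := by
  simp only [number, List.forall_mem_map]
  constructor
  · rintro ⟨σ, h⟩
    refine ⟨fun v => σ ((vars ψ).idxOf v), fun C hC => ?_⟩
    obtain ⟨_, hl, e⟩ := h C hC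
    obtain ⟨l, hl', rfl⟩ := List.mem_map.1 hl
    exact ⟨l, hl', e⟩
  · rintro ⟨σ, h⟩
    refine ⟨fun i => σ ((vars ψ).getD i (vb 0)), fun C hC => ?_⟩
    obtain ⟨l, hl, e⟩ := h C hC
    refine ⟨_, List.mem_map_of_mem hl, ?_⟩
    have h1 := List.idxOf_lt_length_of_mem (mem_vars hC hl)
    simp only
    rw [List.getD_eq_getElem _ _ h1, List.getElem_idxOf h1]
    exact e

theorem vars_pt : PT vars := by unfold vars; fun_prop

theorem number_pt : PT number := by
  have := vars_pt
  unfold number; fun_prop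

open Crest.Agent.Lib.PT in
theorem cook_levin (A : Set (List Bool)) (hA : Crest.Complexity.InNP A) :
  ∃ (φ : List Bool → List (List (ℕ × Bool))) (n : List Bool → ℕ),
    PT φ ∧ PT n ∧ PB n ∧ (∀ x, ∀ C ∈ φ x, ∀ l ∈ C, l.1 < n x) ∧
    ∀ x, x ∈ A ↔ ∃ σ : ℕ → Bool, ∀ C ∈ φ x, ∃ l ∈ C, σ l.1 = l.2 := by
  obtain ⟨V, p, hV, hA⟩ := hA
  obtain ⟨M, T₀, hk, hM⟩ := exists_mach V hV
  let ψ : List Bool → List Clause := fun x =>
    M.cnf x (p.eval x.length) (T₀.eval (x.length + p.eval x.length))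
  have hψ : PT ψ := cnf_pt M PT.id (by fun_prop) (by fun_prop) (by fun_prop)
  refine ⟨fun x => number (ψ x), fun x => (vars (ψ x)).length, number_pt.comp hψ,
    (vars_pt.comp hψ).length, PB.length (vars_pt.comp hψ), fun x => number_lt _, fun x => ?_⟩
  rw [number_sat, hA]
  constructor
  · rintro ⟨w, hw, hv⟩
    obtain ⟨st, cell, R⟩ := hM x w
    rw [hv] at R
    exact M.complete x w _ _ _ hw (eval_mono T₀ (by omega)) R
  · rintro ⟨σ, hσ⟩
    obtain ⟨w, hw, h⟩ := M.sound hk x _ _ σ hσ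
    obtain ⟨st, cell, R⟩ := hM x w
    exact ⟨w, hw, h _ _ st cell (eval_mono T₀ (by omega)) R⟩

end Crest.Agent.Lib.CookLevin
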